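import Mathlib

/-! # P097 / Disc (S3), part 2 (helper104): expansion of rational functions at infinity -/

open Finset Polynomial

namespace Vale.Agent.P097.H104

variable {k : Type*} [Field k]

/-- polynomials in `p` as Laurent series in `1/p` -/
noncomputable def phi : k[X] →+* LaurentSeries k :=
  Polynomial.eval₂RingHom (HahnSeries.C : k →+* LaurentSeries k)
    (HahnSeries.single (-1 : ℤ) (1 : k))

theorem phi_monomial (n : ℕ) (a : k) :
    phi (monomial n a) = (HahnSeries.single (-(n : ℤ)) a : LaurentSeries k) := by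
  show Polynomial.eval₂ (HahnSeries.C : k →+* LaurentSeries k) (HahnSeries.single (-1 : ℤ) (1 : k))
    (monomial n a) = _
  rw [eval₂_monomial, HahnSeries.single_pow, one_pow, HahnSeries.C_apply,
    HahnSeries.single_mul_single, zero_add, mul_one]
  congr 1
  simp

theorem phi_coeff (P : k[X]) (j : ℤ) :
    (phi P : LaurentSeries k).coeff j = if j ≤ 0 then P.coeff (-j).toNat else 0 := by
  induction P using Polynomial.induction_on' with
  | add p q hp hq =>
    rw [map_add, HahnSeries.coeff_add, hp, hq, coeff_add]
    split_ifs <;> simp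
  | monomial n a =>
    rw [phi_monomial, HahnSeries.coeff_single, coeff_monomial]
    by_cases h : j ≤ 0
    · rw [if_pos h]
      by_cases h2 : j = -(n : ℤ)
      · rw [if_pos h2, if_pos (by omega)]
      · rw [if_neg h2, if_neg (by omega)]
    · rw [if_neg h, if_neg (by omega)]

theorem phi_coeff_neg (P : k[X]) (n : ℕ) :
    (phi P : LaurentSeries k).coeff (-(n : ℤ)) = P.coeff n := by
  rw [phi_coeff, if_pos (by omega)]
  congr 1
  omega

theorem phi_injective : Function.Injective (phi : k[X] →+* LaurentSeries k) := by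
  intro P Q h
  ext n
  rw [← phi_coeff_neg, ← phi_coeff_neg, h]

/-- expansion at infinity -/
noncomputable def psi : RatFunc k →+* LaurentSeries k := IsFractionRing.lift phi_injective

theorem psi_poly (P : k[X]) : psi (algebraMap k[X] (RatFunc k) P) = phi P :=
  IsFractionRing.lift_algebraMap phi_injective P

theorem phi_mul_coeff (P : k[X]) {m : ℕ} (hm : P.natDegree ≤ m) (x : LaurentSeries k) (j : ℤ) :
    (phi P * x).coeff j = ∑ a ∈ range (m + 1), P.coeff a * x.coeff (j + a) := by
  conv_lhs => rw [P.as_sum_range' (m + 1) (Nat.lt_succ_of_le hm)]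
  rw [map_sum, sum_mul, HahnSeries.coeff_sum]
  refine sum_congr rfl fun a _ => ?_
  rw [phi_monomial, HahnSeries.coeff_single_mul]
  congr 2
  ring

theorem phi_order {P : k[X]} (hP : P ≠ 0) :
    (phi P : LaurentSeries k).order = -(P.natDegree : ℤ) := by
  have h0 : (phi P : LaurentSeries k) ≠ 0 := fun h => hP (phi_injective (h.trans (map_zero _).symm))
  refine le_antisymm ?_ ?_
  · refine HahnSeries.order_le_of_coeff_ne_zero ?_
    rw [phi_coeff_neg]
    exact fun h => hP (leadingCoeff_eq_zero.1 h)
  · rw [HahnSeries.le_order_iff_forall h0]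
    intro j hj
    rw [phi_coeff, if_pos (by omega)]
    exact coeff_eq_zero_of_natDegree_lt (by omega)

theorem psi_order {r : RatFunc k} (hr : r ≠ 0) : (psi r).order = -r.intDegree := by
  have h1 : psi r * phi r.denom = phi r.num := by
    rw [← psi_poly, ← psi_poly, ← map_mul]
    congr 1
    have hd : algebraMap k[X] (RatFunc k) r.denom ≠ 0 :=
      RatFunc.algebraMap_ne_zero (RatFunc.denom_ne_zero r)
    exact ((div_eq_iff hd).1 (RatFunc.num_div_denom r)).symm
  have hn : r.num ≠ 0 := RatFunc.num_ne_zero hr
  have hd : r.denom ≠ 0 := RatFunc.denom_ne_zero r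
  have hpr : psi r ≠ 0 := (_root_.map_ne_zero _).2 hr
  have hpd : (phi r.denom : LaurentSeries k) ≠ 0 :=
    fun h => hd (phi_injective (h.trans (map_zero _).symm))
  have h2 := congrArg HahnSeries.order h1
  rw [HahnSeries.order_mul hpr hpd, phi_order hn, phi_order hd] at h2
  unfold RatFunc.intDegree
  linarith

theorem psi_coeff_zero {r : RatFunc k} {s : ℤ} (hr : r = 0 ∨ r.intDegree ≤ s) {j : ℤ}
    (hj : j < -s) : (psi r).coeff j = 0 := by
  by_cases h0 : r = 0
  · rw [h0]; simp
  · refine HahnSeries.coeff_eq_zero_of_lt_order ?_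
    rw [psi_order h0]
    have := hr.resolve_left h0
    linarith

/-- a rational function without polar part at infinity ... is a polynomial -/
theorem exists_poly (r : RatFunc k) (h : ∀ j : ℤ, 1 ≤ j → (psi r).coeff j = 0) :
    ∃ P : k[X], algebraMap k[X] (RatFunc k) P = r ∧
      ∀ n : ℕ, P.coeff n = (psi r).coeff (-(n : ℤ)) := by
  classical
  set N := r.intDegree.toNat with hN
  let P : k[X] := ∑ n ∈ range (N + 1), monomial n ((psi r).coeff (-(n : ℤ)))
  have hc : ∀ n : ℕ, P.coeff n = (psi r).coeff (-(n : ℤ)) := by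
    intro n
    show (∑ n ∈ range (N + 1), monomial n ((psi r).coeff (-(n : ℤ)))).coeff n = _
    rw [finsetSum_coeff]
    simp only [coeff_monomial]
    rw [sum_ite_eq']
    split_ifs with h1
    · rfl
    · rw [mem_range, not_lt] at h1
      symm
      refine psi_coeff_zero (s := r.intDegree) (Or.inr le_rfl) ?_
      omega
  refine ⟨P, psi.injective ?_, hc⟩
  rw [psi_poly]
  ext j
  rw [phi_coeff]
  split_ifs with h1
  · rw [hc]
    congr 1
    omega
  · exact (h j (by omega)).symm

end Vale.Agent.P097.H104
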