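import Vale.Agent.P097.H104.Rec
import Vale.Agent.P097.H104.Inf

/-! # P097 / Disc (S3) (helper104): Kronecker + Fatou with the degree bounds -/

open Finset Polynomial

namespace Vale.Agent.P097.H104

variable {k : Type*} [Field k]

theorem sum_range_antidiag {M : Type*} [AddCommMonoid M] (f : ℕ → ℕ → M) (n : ℕ) :
    ∑ i ∈ range (n + 1), f i (n - i) = ∑ q ∈ antidiagonal n, f q.1 q.2 :=
  (Finset.Nat.sum_antidiagonal_eq_sum_range_succ f n).symm

/-- **(S3)**: `F = ∑ F n N^n`, `F n = O(p^(1-n))`, `D F ∈ k[p][[N]]` with `D ∈ k[p][[N]]` monic of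
degree `m` in `p`. Then `F = P / Q` with polynomials `P, Q` in `(N, p)`, `Q` monic in `p` of degree
`e` and total degree `≤ e`, `P` of total degree `≤ e + 1`. (`Q i`, `P i` are the coefficients of
`N^i`, polynomials in `p`.) -/
theorem fatou (F : ℕ → RatFunc k) (hF : ∀ n, F n = 0 ∨ (F n).intDegree ≤ 1 - (n : ℤ)) (m : ℕ)
    (D : ℕ → k[X]) (hD0 : (D 0).Monic) (hDm : (D 0).natDegree = m)
    (hD : ∀ n, 1 ≤ n → (D n).degree < m)
    (hE : ∀ n, ∃ E : k[X], ∑ i ∈ range (n + 1),
      algebraMap k[X] (RatFunc k) (D i) * F (n - i) = algebraMap k[X] (RatFunc k) E) :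
    ∃ (e : ℕ) (Q P : ℕ → k[X]), (Q 0).Monic ∧ (Q 0).natDegree = e ∧
      (∀ i, Q i = 0 ∨ (Q i).natDegree + i ≤ e) ∧ (∀ i, P i = 0 ∨ (P i).natDegree + i ≤ e + 1) ∧
      ∀ n, ∑ i ∈ range (n + 1), algebraMap k[X] (RatFunc k) (Q i) * F (n - i) =
        algebraMap k[X] (RatFunc k) (P n) := by
  classical
  have hFc : ∀ (n : ℕ) (j : ℤ), j < (n : ℤ) - 1 → (psi (F n)).coeff j = 0 := by
    intro n j hj
    exact psi_coeff_zero (hF n) (by linarith)
  let G : ℕ → k[X] := fun j => ∑ n ∈ range (j + 3), monomial n ((psi (F n)).coeff ((j : ℤ) + 1))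
  have hGc : ∀ j n, (G j).coeff n = (psi (F n)).coeff ((j : ℤ) + 1) := by
    intro j n
    show (∑ n ∈ range (j + 3), monomial n ((psi (F n)).coeff ((j : ℤ) + 1))).coeff n = _
    rw [finsetSum_coeff]
    simp only [coeff_monomial]
    rw [sum_ite_eq']
    split_ifs with h1
    · rfl
    · rw [mem_range, not_lt] at h1
      exact (hFc n _ (by omega)).symm
  have hG : ∀ j, (G j).natDegree ≤ j + 2 := by
    intro j
    refine natDegree_sum_le_of_forall_le _ _ fun n hn => ?_
    refine (natDegree_monomial_le _).trans ?_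
    have := mem_range.1 hn
    omega
  let Da : ℕ → PowerSeries k := fun a => PowerSeries.mk fun i => (D i).coeff a
  have hDam : Da m = 1 := by
    ext i
    show PowerSeries.coeff i (PowerSeries.mk fun i => (D i).coeff m) = _
    rw [PowerSeries.coeff_mk, PowerSeries.coeff_one]
    split_ifs with h
    · subst h
      rw [← hDm]
      exact hD0
    · exact coeff_eq_zero_of_degree_lt (hD i (by omega))
  have hDdeg : ∀ i, (D i).natDegree ≤ m := by
    intro i
    by_cases hi : i = 0
    · subst hi; exact hDm.le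
    · exact natDegree_le_of_degree_le (hD i (by omega)).le
  have hrecD : ∀ j, ∑ a ∈ range (m + 1), Da a * (G (j + a) : PowerSeries k) = 0 := by
    intro j
    ext n
    rw [map_sum, map_zero]
    have h1 : ∀ a ∈ range (m + 1), PowerSeries.coeff n (Da a * (G (j + a) : PowerSeries k)) =
        ∑ q ∈ antidiagonal n, (D q.1).coeff a * (psi (F q.2)).coeff ((j : ℤ) + 1 + a) := by
      intro a _
      rw [PowerSeries.coeff_mul]
      refine sum_congr rfl fun q _ => ?_
      show PowerSeries.coeff q.1 (PowerSeries.mk fun i => (D i).coeff a) * _ = _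
      rw [PowerSeries.coeff_mk, Polynomial.coeff_coe, hGc]
      congr 2
      push_cast
      ring
    rw [sum_congr rfl h1, sum_comm]
    have h2 : ∀ q ∈ antidiagonal n, (∑ a ∈ range (m + 1),
        (D q.1).coeff a * (psi (F q.2)).coeff ((j : ℤ) + 1 + a)) =
        (psi (algebraMap k[X] (RatFunc k) (D q.1) * F q.2)).coeff ((j : ℤ) + 1) := by
      intro q _
      rw [map_mul, psi_poly, phi_mul_coeff _ (hDdeg q.1)]
    rw [sum_congr rfl h2]
    obtain ⟨E, hE⟩ := hE n
    rw [sum_range_antidiag (fun i l => algebraMap k[X] (RatFunc k) (D i) * F l)] at hE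
    rw [← HahnSeries.coeff_sum, ← map_sum, hE, psi_poly, phi_coeff, if_neg (by omega)]
  obtain ⟨e, r, hre, hrd, hr⟩ := rec_poly G hG Da hDam hrecD
  let Q : ℕ → k[X] := fun n => ∑ i ∈ range (e + 1), monomial i ((r i).coeff n)
  have hQc : ∀ n i, (Q n).coeff i = if i ≤ e then (r i).coeff n else 0 := by
    intro n i
    show (∑ i ∈ range (e + 1), monomial i ((r i).coeff n)).coeff i = _
    rw [finsetSum_coeff]
    simp only [coeff_monomial]
    rw [sum_ite_eq']
    split_ifs with h1 h2 h2
    · rfl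
    · rw [mem_range] at h1; omega
    · rw [mem_range] at h1; omega
    · rfl
  have hQe : ∀ n, (Q n).natDegree ≤ e := by
    intro n
    refine natDegree_sum_le_of_forall_le _ _ fun i hi => ?_
    refine (natDegree_monomial_le _).trans ?_
    have := mem_range.1 hi
    omega
  have hQr : ∀ n i, (Q n).coeff i ≠ 0 → i ≤ e ∧ i + n ≤ e := by
    intro n i h
    rw [hQc] at h
    split_ifs at h with h1
    · refine ⟨h1, ?_⟩
      have h2 := le_natDegree_of_ne_zero h
      have h3 := hrd i h1
      omega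
    · exact absurd rfl h
  have hQ0 : (Q 0).coeff e = 1 := by
    rw [hQc, if_pos le_rfl, hre]
    simp
  have hRc : ∀ (n : ℕ) (j : ℤ), (psi (∑ i ∈ range (n + 1),
      algebraMap k[X] (RatFunc k) (Q i) * F (n - i))).coeff j =
      ∑ q ∈ antidiagonal n, ∑ a ∈ range (e + 1), (Q q.1).coeff a * (psi (F q.2)).coeff (j + a) := by
    intro n j
    rw [sum_range_antidiag (fun i l => algebraMap k[X] (RatFunc k) (Q i) * F l), map_sum,
      HahnSeries.coeff_sum]
    refine sum_congr rfl fun q _ => ?_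
    rw [map_mul, psi_poly, phi_mul_coeff _ (hQe q.1)]
  have hR1 : ∀ (n : ℕ) (j : ℤ), 1 ≤ j → (psi (∑ i ∈ range (n + 1),
      algebraMap k[X] (RatFunc k) (Q i) * F (n - i))).coeff j = 0 := by
    intro n j hj
    obtain ⟨j', rfl⟩ : ∃ j' : ℕ, j = (j' : ℤ) + 1 := ⟨(j - 1).toNat, by omega⟩
    rw [hRc, sum_comm]
    have h1 := congrArg (fun p : k[X] => p.coeff n) (hr j')
    simp only [finsetSum_coeff, coeff_mul, coeff_zero] at h1
    rw [← h1]
    refine sum_congr rfl fun a ha => sum_congr rfl fun q _ => ?_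
    have ha' := mem_range.1 ha
    rw [hQc, if_pos (by omega), hGc]
    congr 2
    push_cast
    ring
  have hR2 : ∀ (n : ℕ) (j : ℤ), j < (n : ℤ) - 1 - e → (psi (∑ i ∈ range (n + 1),
      algebraMap k[X] (RatFunc k) (Q i) * F (n - i))).coeff j = 0 := by
    intro n j hj
    rw [hRc]
    refine sum_eq_zero fun q hq => sum_eq_zero fun a _ => ?_
    rw [Finset.HasAntidiagonal.mem_antidiagonal] at hq
    by_cases h : (Q q.1).coeff a = 0
    · rw [h, zero_mul]
    · have h2 := hQr _ _ h
      rw [hFc q.2 (j + a) (by omega), mul_zero]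
  choose P hP hPc using fun n => exists_poly (∑ i ∈ range (n + 1),
    algebraMap k[X] (RatFunc k) (Q i) * F (n - i)) (hR1 n)
  refine ⟨e, Q, P, monic_of_natDegree_le_of_coeff_eq_one e (hQe 0) hQ0, ?_, ?_, ?_, ?_⟩
  · refine le_antisymm (hQe 0) (le_natDegree_of_ne_zero ?_)
    rw [hQ0]; exact one_ne_zero
  · intro i
    by_cases h : Q i = 0
    · exact Or.inl h
    · right
      exact (hQr i (Q i).natDegree (fun h0 => h (leadingCoeff_eq_zero.1 h0))).2
  · intro n
    by_cases h : P n = 0
    · exact Or.inl h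
    · right
      have h1 : (P n).coeff (P n).natDegree ≠ 0 := fun h0 => h (leadingCoeff_eq_zero.1 h0)
      rw [hPc] at h1
      by_contra h2
      exact h1 (hR2 n _ (by omega))
  · intro n
    exact (hP n).symm

end Vale.Agent.P097.H104
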