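import Mathlib

/-! # P097 / Disc (S3), part 1 (helper104): a recurrence with power series coefficients for a
sequence of polynomials `G j`, `deg (G j) ≤ j + c`, gives a recurrence with polynomial coefficients
of the right degrees. No Hankel determinants: a linear functional over `k(N)`, homogenisation and
Cayley–Hamilton for the shift on a finite module. -/

open Finset Polynomial

namespace Vale.Agent.P097.H104

variable {k : Type*} [Field k]

/-! ### Step 1: descent of the coefficients (Kronecker) -/

theorem kronecker {m : ℕ} (G : ℕ → k[X]) (D : ℕ → PowerSeries k) (hm : D m = 1)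
    (hD : ∀ j, ∑ a ∈ range (m + 1), D a * (G (j + a) : PowerSeries k) = 0) :
    ∃ b : ℕ → k[X], b m ≠ 0 ∧ ∀ j, ∑ a ∈ range (m + 1), b a * G (j + a) = 0 := by
  classical
  let ι : k[X] →+* LaurentSeries k := (HahnSeries.ofPowerSeries ℤ k).comp Polynomial.coeToPowerSeries.ringHom
  have hι : Function.Injective ι :=
    HahnSeries.ofPowerSeries_injective.comp (Polynomial.coe_injective k)
  let κ : (RatFunc k) →+* (LaurentSeries k) := IsFractionRing.lift hι
  have hκ : ∀ P : k[X], κ (algebraMap k[X] (RatFunc k) P) = ι P :=
    fun P => IsFractionRing.lift_algebraMap hι P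
  let _ : Algebra (RatFunc k) (LaurentSeries k) := κ.toAlgebra
  obtain ⟨g, hg⟩ := LinearMap.exists_leftInverse_of_injective (Algebra.linearMap (RatFunc k) (LaurentSeries k))
    (LinearMap.ker_eq_bot.2 (by
      rw [Algebra.coe_linearMap]; exact (algebraMap (RatFunc k) (LaurentSeries k)).injective))
  have hg1 : ∀ x : (RatFunc k), g (algebraMap (RatFunc k) (LaurentSeries k) x) = x := fun x => by
    have := LinearMap.congr_fun hg x
    simpa using this
  have hP : ∀ P : k[X], ((P : PowerSeries k) : (LaurentSeries k)) = algebraMap (RatFunc k) (LaurentSeries k) (algebraMap k[X] (RatFunc k) P) :=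
    fun P => (hκ P).symm
  let q : ℕ → (RatFunc k) := fun a => g ((D a : PowerSeries k) : (LaurentSeries k))
  have hq : ∀ j, ∑ a ∈ range (m + 1), q a * algebraMap k[X] (RatFunc k) (G (j + a)) = 0 := by
    intro j
    have h1 : g (((∑ a ∈ range (m + 1), D a * (G (j + a) : PowerSeries k) : PowerSeries k)) : (LaurentSeries k)) =
        0 := by
      rw [hD j]; simp
    rw [← h1]
    have h2 : (((∑ a ∈ range (m + 1), D a * (G (j + a) : PowerSeries k) : PowerSeries k)) : (LaurentSeries k)) =
        ∑ a ∈ range (m + 1), (algebraMap k[X] (RatFunc k) (G (j + a))) • ((D a : PowerSeries k) : (LaurentSeries k)) := by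
      change (HahnSeries.ofPowerSeries ℤ k) _ = _
      rw [map_sum]
      refine sum_congr rfl fun a _ => ?_
      rw [map_mul, mul_comm, Algebra.smul_def]
      congr 1
      exact hP _
    rw [h2, map_sum]
    refine sum_congr rfl fun a _ => ?_
    rw [map_smul, smul_eq_mul, mul_comm]
  have hqm : q m = 1 := by
    show g ((D m : PowerSeries k) : (LaurentSeries k)) = 1
    rw [hm]
    have := hg1 1
    rw [map_one] at this
    rw [← this]
    congr 1
    change (HahnSeries.ofPowerSeries ℤ k) 1 = _
    rw [map_one]
  obtain ⟨s, hs⟩ := IsLocalization.exist_integer_multiples (nonZeroDivisors k[X])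
    (range (m + 1)) q
  choose! b hb using hs
  have hs0 : (s : k[X]) ≠ 0 := nonZeroDivisors.coe_ne_zero s
  have hinj : Function.Injective (algebraMap k[X] (RatFunc k)) := IsFractionRing.injective k[X] (RatFunc k)
  refine ⟨b, ?_, ?_⟩
  · have h1 := hb m (mem_range.2 (Nat.lt_succ_self m))
    rw [hqm] at h1
    have h2 : algebraMap k[X] (RatFunc k) (b m) = algebraMap k[X] (RatFunc k) s := by
      rw [h1, Algebra.smul_def, mul_one]
    rw [hinj h2]
    exact hs0
  · intro j
    apply hinj
    rw [map_zero, map_sum]
    have h1 : ∀ a ∈ range (m + 1), algebraMap k[X] (RatFunc k) (b a * G (j + a)) =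
        algebraMap k[X] (RatFunc k) s * (q a * algebraMap k[X] (RatFunc k) (G (j + a))) := by
      intro a ha
      rw [map_mul, hb a ha, Algebra.smul_def, mul_assoc]
    rw [sum_congr rfl h1, ← mul_sum, hq j, mul_zero]

/-! ### Step 2: finite module and Cayley–Hamilton -/

section shift

variable {A : Type*} [CommRing A] [IsDomain A] [IsNoetherianRing A]

/-- the shift -/
def sh (A : Type*) [CommRing A] : (ℕ → A) →ₗ[A] (ℕ → A) := LinearMap.funLeft A A (fun j => j + 1)

omit [IsDomain A] [IsNoetherianRing A] in
theorem sh_pow (i : ℕ) (x : ℕ → A) (j : ℕ) : ((sh A) ^ i) x j = x (j + i) := by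
  induction i generalizing j with
  | zero => simp
  | succ i ih =>
    rw [pow_succ', Module.End.mul_apply]
    show ((sh A) ^ i) x (j + 1) = _
    rw [ih]
    congr 1
    omega

/-- A sequence over a Noetherian domain satisfying a linear recurrence (leading coefficient `≠ 0`)
satisfies a monic one. -/
theorem monic_rec {m : ℕ} (H : ℕ → A) (β : ℕ → A) (hm : β m ≠ 0)
    (hrec : ∀ j, ∑ a ∈ range (m + 1), β a * H (j + a) = 0) :
    ∃ (e : ℕ) (r : ℕ → A), r e = 1 ∧ ∀ j, ∑ i ∈ range (e + 1), r i * H (j + i) = 0 := by
  classical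
  let M : Submodule A (ℕ → A) := Submodule.span A (Set.range fun s : ℕ => ((sh A) ^ s) H)
  let N0 : Submodule A (ℕ → A) :=
    { carrier := {x | ∀ j, ∑ a ∈ range (m + 1), β a * x (j + a) = 0}
      add_mem' := by
        intro x y hx hy j
        have : ∀ a ∈ range (m + 1), β a * (x + y) (j + a) = β a * x (j + a) + β a * y (j + a) :=
          fun a _ => by rw [Pi.add_apply, mul_add]
        rw [sum_congr rfl this, sum_add_distrib, hx j, hy j, add_zero]
      zero_mem' := by
        intro j
        simp
      smul_mem' := by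
        intro c x hx j
        have : ∀ a ∈ range (m + 1), β a * (c • x) (j + a) = c * (β a * x (j + a)) :=
          fun a _ => by rw [Pi.smul_apply, smul_eq_mul]; ring
        rw [sum_congr rfl this, ← mul_sum, hx j, mul_zero] }
  have hMN : M ≤ N0 := by
    refine Submodule.span_le.2 ?_
    rintro _ ⟨s, rfl⟩ j
    simp only [sh_pow]
    have := hrec (j + s)
    rw [← this]
    refine sum_congr rfl fun a _ => ?_
    congr 2
    omega
  let π : M →ₗ[A] (Fin m → A) := (LinearMap.funLeft A A (fun i : Fin m => (i : ℕ))).comp M.subtype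
  have hπ : Function.Injective π := by
    rw [← LinearMap.ker_eq_bot, LinearMap.ker_eq_bot']
    rintro ⟨x, hx⟩ h0
    have hx0 : ∀ j, x j = 0 := by
      intro j
      induction j using Nat.strong_induction_on with
      | _ j ih =>
        by_cases hj : j < m
        · have := congrFun h0 ⟨j, hj⟩
          exact this
        · obtain ⟨l, rfl⟩ := Nat.exists_eq_add_of_le (not_lt.1 hj)
          have h1 := hMN hx l
          rw [sum_range_succ, sum_eq_zero, zero_add] at h1
          · have h2 := (mul_eq_zero.1 h1).resolve_left hm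
            rwa [add_comm] at h2
          · intro a ha
            rw [mem_range] at ha
            rw [ih (l + a) (by omega), mul_zero]
    ext j
    exact hx0 j
  have : Module.Finite A M := Module.Finite.of_injective π hπ
  have hsh : ∀ x ∈ M, sh A x ∈ M := by
    intro x hx
    have : M ≤ M.comap (sh A) := by
      refine Submodule.span_le.2 ?_
      rintro _ ⟨s, rfl⟩
      refine Submodule.subset_span ⟨s + 1, ?_⟩
      show ((sh A) ^ (s + 1)) H = sh A (((sh A) ^ s) H)
      rw [pow_succ', Module.End.mul_apply]
    exact this hx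
  let S : M →ₗ[A] M := (sh A).restrict hsh
  obtain ⟨r, hr, hr0⟩ := LinearMap.exists_monic_and_aeval_eq_zero A S
  have hHM : H ∈ M := Submodule.subset_span ⟨0, by simp⟩
  have hSp : ∀ (i : ℕ) (x : M), (((S ^ i) x : M) : ℕ → A) = ((sh A) ^ i) (x : ℕ → A) := by
    intro i
    induction i with
    | zero => intro x; simp
    | succ i ih =>
      intro x
      rw [pow_succ', Module.End.mul_apply, pow_succ', Module.End.mul_apply, ← ih x]
      rfl
  refine ⟨r.natDegree, fun i => r.coeff i, hr.coeff_natDegree, fun j => ?_⟩
  have h1 : (aeval S r) ⟨H, hHM⟩ = 0 := by rw [hr0]; rfl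
  rw [aeval_eq_sum_range, LinearMap.sum_apply] at h1
  have h2 := congrArg (fun y : M => (y : ℕ → A) j) h1
  simp only [AddSubmonoidClass.coe_finsetSum, Finset.sum_apply, LinearMap.smul_apply,
    Submodule.coe_smul, Pi.smul_apply, smul_eq_mul, hSp, sh_pow] at h2
  exact h2

end shift

/-! ### Step 3: homogenisation -/

theorem homogeneousComponent_mul_right {σ R : Type*} [CommSemiring R] (p q : MvPolynomial σ R)
    {n : ℕ} (hq : q.IsHomogeneous n) (a : ℕ) :
    MvPolynomial.homogeneousComponent (a + n) (p * q) =
      MvPolynomial.homogeneousComponent a p * q := by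
  classical
  conv_lhs => rw [← MvPolynomial.sum_homogeneousComponent p]
  rw [sum_mul, map_sum]
  have h1 : ∀ i ∈ range (p.totalDegree + 1),
      MvPolynomial.homogeneousComponent (a + n) (MvPolynomial.homogeneousComponent i p * q) =
        if i = a then MvPolynomial.homogeneousComponent a p * q else 0 := by
    intro i _
    have h2 : (MvPolynomial.homogeneousComponent i p * q).IsHomogeneous (i + n) :=
      (MvPolynomial.homogeneousComponent_isHomogeneous i p).mul hq
    rw [MvPolynomial.homogeneousComponent_of_mem ((MvPolynomial.mem_homogeneousSubmodule _ _).2 h2)]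
    by_cases hi : i = a
    · subst hi; simp
    · rw [if_neg (by omega), if_neg hi]
  rw [sum_congr rfl h1, sum_ite_eq']
  split_ifs with h
  · rfl
  · rw [mem_range, not_lt] at h
    rw [MvPolynomial.homogeneousComponent_eq_zero _ _ (by omega), zero_mul]

theorem natDegree_dehom {q : MvPolynomial (Fin 2) k} {n : ℕ} (hq : q.IsHomogeneous n) :
    (MvPolynomial.aeval ![(X : k[X]), 1] q).natDegree ≤ n := by
  have h := MvPolynomial.aeval_natDegree_le (m := n) (n := 1) q hq.totalDegree_le
    ![(X : k[X]), 1] (by
      intro i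
      fin_cases i
      · simp
      · simp)
  simpa using h

/-- **(S3), algebraic core.** -/
theorem rec_poly {m c : ℕ} (G : ℕ → k[X]) (hG : ∀ j, (G j).natDegree ≤ j + c)
    (D : ℕ → PowerSeries k) (hm : D m = 1)
    (hD : ∀ j, ∑ a ∈ range (m + 1), D a * (G (j + a) : PowerSeries k) = 0) :
    ∃ (e : ℕ) (r : ℕ → k[X]), r e = 1 ∧ (∀ i ≤ e, (r i).natDegree ≤ e - i) ∧
      ∀ j, ∑ i ∈ range (e + 1), r i * G (j + i) = 0 := by
  classical
  obtain ⟨b, hb, hbG⟩ := kronecker G D hm hD
  -- degree bound of the `b a`
  obtain ⟨B, hB⟩ : ∃ B, ∀ a ∈ range (m + 1), (b a).natDegree ≤ B :=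
    ⟨(range (m + 1)).sup fun a => (b a).natDegree, fun a ha =>
      Finset.le_sup (f := fun a => (b a).natDegree) ha⟩
  let H : ℕ → MvPolynomial (Fin 2) k := fun j => homogenize (G j) (j + c)
  let β : ℕ → MvPolynomial (Fin 2) k := fun a => homogenize (b a) (B + (m - a))
  have hβ : β m ≠ 0 := by
    intro h0
    refine hb (Polynomial.eq_zero_of_homogenize_eq_zero (n := B + (m - m)) ?_ h0)
    have := hB m (mem_range.2 (Nat.lt_succ_self m))
    omega
  have hrec : ∀ j, ∑ a ∈ range (m + 1), β a * H (j + a) = 0 := by
    intro j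
    have h1 : ∀ a ∈ range (m + 1), β a * H (j + a) =
        homogenize (b a * G (j + a)) (B + m + j + c) := by
      intro a ha
      have ha' := mem_range.1 ha
      have h2 := Polynomial.homogenize_mul (b a) (G (j + a)) (m := B + (m - a)) (n := j + a + c)
        ((hB a ha).trans (Nat.le_add_right _ _)) (hG _)
      rw [show B + (m - a) + (j + a + c) = B + m + j + c by omega] at h2
      exact h2.symm
    rw [sum_congr rfl h1, ← Polynomial.homogenize_finsetSum, hbG j, Polynomial.homogenize_zero]
  obtain ⟨e, r, hre, hr⟩ := monic_rec H β hβ hrec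
  refine ⟨e, fun i => MvPolynomial.aeval ![(X : k[X]), 1]
    (MvPolynomial.homogeneousComponent (e - i) (r i)), ?_, fun i _ => ?_, fun j => ?_⟩
  · simp only [hre, Nat.sub_self]
    rw [MvPolynomial.homogeneousComponent_zero]
    simp
  · exact natDegree_dehom (MvPolynomial.homogeneousComponent_isHomogeneous _ _)
  · have h1 := congrArg (MvPolynomial.homogeneousComponent (e + (j + c))) (hr j)
    rw [map_sum, map_zero] at h1
    have h2 : ∀ i ∈ range (e + 1),
        MvPolynomial.homogeneousComponent (e + (j + c)) (r i * H (j + i)) =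
          MvPolynomial.homogeneousComponent (e - i) (r i) * H (j + i) := by
      intro i hi
      have hi' := mem_range.1 hi
      have h3 := homogeneousComponent_mul_right (r i) (H (j + i)) (n := j + i + c)
        (Polynomial.isHomogeneous_homogenize _) (e - i)
      rw [show e - i + (j + i + c) = e + (j + c) by omega] at h3
      exact h3
    rw [sum_congr rfl h2] at h1
    have h4 := congrArg (MvPolynomial.aeval ![(X : k[X]), 1]) h1
    rw [map_sum, map_zero] at h4
    rw [← h4]
    refine sum_congr rfl fun i _ => ?_
    rw [map_mul]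
    congr 1
    exact (Polynomial.aeval_homogenize_X_one (G (j + i)) (hG _)).symm

end Vale.Agent.P097.H104
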