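import Vale.Agent.P097.H104.Fatou
import Vale.Agent.P097.H123.D3Defs

/-! # P097 / Disc : (S3) rationality of the slope (helper104). -/

open Finset Polynomial

namespace Vale.Agent.P097.H104

/-- `N ↦ N T`, `p ↦ p T` -/
noncomputable def tau : ℂ[X][X] →+* ℂ[X][X][X] :=
  Polynomial.eval₂RingHom (Polynomial.eval₂RingHom ((C : ℂ[X][X] →+* ℂ[X][X][X]).comp
    ((C : ℂ[X] →+* ℂ[X][X]).comp (C : ℂ →+* ℂ[X]))) ((X : ℂ[X][X][X]) * C (C X)))
    ((X : ℂ[X][X][X]) * C X)

theorem tau_coeff (R : ℂ[X][X]) (n j i : ℕ) :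
    (((tau R).coeff n).coeff j).coeff i = if i + j = n then (R.coeff j).coeff i else 0 := by
  induction R using Polynomial.induction_on' with
  | add p q hp hq =>
    rw [map_add, coeff_add, coeff_add, coeff_add, hp, hq, coeff_add, coeff_add]
    split_ifs <;> simp
  | monomial b a =>
    induction a using Polynomial.induction_on' with
    | add p q hp hq =>
      rw [map_add, map_add, coeff_add, coeff_add, coeff_add, hp, hq, coeff_add, coeff_add]
      split_ifs <;> simp
    | monomial c x =>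
      have h : tau (monomial b (monomial c x)) =
          C (C (C x * X ^ c) * X ^ b) * X ^ (b + c) := by
        simp only [tau, coe_eval₂RingHom, eval₂_monomial, RingHom.comp_apply]
        simp only [map_mul, map_pow]
        ring
      rw [h, coeff_C_mul_X_pow]
      by_cases h1 : n = b + c
      · rw [if_pos h1, coeff_C_mul_X_pow]
        by_cases h2 : j = b
        · rw [if_pos h2, coeff_C_mul_X_pow, h2, coeff_monomial, if_pos rfl, coeff_monomial]
          by_cases h3 : i = c
          · rw [if_pos h3, if_pos (by omega), if_pos h3.symm]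
          · rw [if_neg h3, if_neg (by omega)]
        · rw [if_neg h2, coeff_monomial, if_neg (Ne.symm h2), coeff_zero, ite_self]
      · rw [if_neg h1, coeff_zero, coeff_zero]
        by_cases h2 : i + j = n
        · rw [if_pos h2, coeff_monomial]
          by_cases h3 : b = j
          · rw [if_pos h3, coeff_monomial, if_neg (by omega)]
          · rw [if_neg h3, coeff_zero]
        · rw [if_neg h2]

theorem tau_le {R : ℂ[X][X]} {D : ℕ} (h : ∀ i j, D < i + j → (R.coeff j).coeff i = 0) :
    (tau R).natDegree ≤ D := by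
  rw [natDegree_le_iff_coeff_eq_zero]
  intro n hn
  ext j i
  rw [tau_coeff, coeff_zero, coeff_zero]
  split_ifs with h1
  · exact h i j (by omega)
  · rfl

theorem coeff_of_tau {R : ℂ[X][X]} {D : ℕ} (h : (tau R).natDegree ≤ D) (i j : ℕ)
    (hij : D < i + j) : (R.coeff j).coeff i = 0 := by
  have h1 := tau_coeff R (i + j) j i
  rw [if_pos rfl] at h1
  rw [← h1, coeff_eq_zero_of_natDegree_lt (lt_of_le_of_lt h hij), coeff_zero, coeff_zero]

theorem tau_ne_zero {R : ℂ[X][X]} (h : R ≠ 0) : tau R ≠ 0 := by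
  intro h0
  apply h
  ext j i
  have h1 := tau_coeff R (i + j) j i
  rw [if_pos rfl, h0] at h1
  rw [← h1]
  simp

theorem le_tau {R : ℂ[X][X]} (h : R.Monic) : R.natDegree ≤ (tau R).natDegree := by
  by_contra h1
  have h2 := coeff_of_tau (le_refl (tau R).natDegree) 0 R.natDegree (by omega)
  rw [h.coeff_natDegree] at h2
  simp at h2

/-- assemble a bivariate polynomial from its `N`-coefficients -/
noncomputable def mkB (e : ℕ) (Q : ℕ → ℂ[X]) : ℂ[X][X] :=
  ∑ i ∈ range (e + 1), (Q i).map C * C (X ^ i)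

theorem mkB_coeff (e : ℕ) (Q : ℕ → ℂ[X]) (i j : ℕ) :
    ((mkB e Q).coeff j).coeff i = if i ≤ e then (Q i).coeff j else 0 := by
  rw [mkB, finsetSum_coeff, finsetSum_coeff]
  have h1 : ∀ b ∈ range (e + 1), (((Q b).map C * C (X ^ b)).coeff j).coeff i =
      if b = i then (Q i).coeff j else 0 := by
    intro b _
    rw [coeff_mul_C, coeff_map, coeff_C_mul_X_pow]
    by_cases h : b = i
    · rw [if_pos h.symm, if_pos h, h]
    · rw [if_neg (Ne.symm h), if_neg h]
  rw [sum_congr rfl h1, sum_ite_eq']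
  simp only [mem_range, Nat.lt_succ_iff]

noncomputable def evH : ℂ[X][X] →+* PowerSeries (RatFunc ℂ) :=
  Polynomial.eval₂RingHom (Polynomial.eval₂RingHom (PowerSeries.C.comp (algebraMap ℂ (RatFunc ℂ)))
    PowerSeries.X) (PowerSeries.C RatFunc.X)

theorem evB_eq (R : ℂ[X][X]) : D3.evB R = evH R := rfl

theorem evH_map (q : ℂ[X]) : evH (q.map C) = PowerSeries.C (D3.pr q) := by
  rw [evH, coe_eval₂RingHom, eval₂_map]
  have h1 : (Polynomial.eval₂RingHom (PowerSeries.C.comp (algebraMap ℂ (RatFunc ℂ)))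
      (PowerSeries.X : PowerSeries (RatFunc ℂ))).comp C =
      PowerSeries.C.comp (algebraMap ℂ (RatFunc ℂ)) := by
    ext x
    simp
  rw [h1, ← hom_eval₂]
  congr 1
  rw [D3.pr, ← aeval_def, ← RatFunc.algebraMap_X, aeval_algebraMap_apply, aeval_X_left_apply]

theorem evH_CX (i : ℕ) : evH (C (X ^ i)) = PowerSeries.X ^ i := by
  rw [evH, coe_eval₂RingHom, eval₂_C, coe_eval₂RingHom, eval₂_X_pow]

theorem evB_mkB (e : ℕ) (Q : ℕ → ℂ[X]) (hQ : ∀ i, e < i → Q i = 0) :
    D3.evB (mkB e Q) = PowerSeries.mk fun n => D3.pr (Q n) := by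
  rw [evB_eq, mkB, map_sum]
  have h1 : ∀ i ∈ range (e + 1), evH ((Q i).map C * C (X ^ i)) =
      PowerSeries.C (D3.pr (Q i)) * PowerSeries.X ^ i := by
    intro i _
    rw [map_mul, evH_map, evH_CX]
  rw [sum_congr rfl h1]
  ext n
  rw [map_sum, PowerSeries.coeff_mk]
  have h2 : ∀ i ∈ range (e + 1), PowerSeries.coeff n
      (PowerSeries.C (D3.pr (Q i)) * PowerSeries.X ^ i) = if i = n then D3.pr (Q n) else 0 := by
    intro i _
    rw [PowerSeries.coeff_C_mul, PowerSeries.coeff_X_pow]
    by_cases h : i = n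
    · rw [if_pos h.symm, if_pos h, h, mul_one]
    · rw [if_neg (Ne.symm h), if_neg h, mul_zero]
  rw [sum_congr rfl h2, sum_ite_eq']
  split_ifs with h
  · rfl
  · rw [mem_range, not_lt] at h
    rw [hQ n (by omega)]
    simp [D3.pr]

/-- coefficient `0` of `evB` -/
theorem evB_zero {P : ℂ[X][X]} (h : PowerSeries.coeff 0 (D3.evB P) = 0) (j : ℕ) :
    (P.coeff j).coeff 0 = 0 := by
  have h1 : PowerSeries.constantCoeff (D3.evB P) =
      D3.pr (P.map (Polynomial.constantCoeff : ℂ[X] →+* ℂ)) := by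
    rw [evB_eq, evH, coe_eval₂RingHom, hom_eval₂]
    rw [D3.pr, ← aeval_X_left_apply (p := P.map (Polynomial.constantCoeff : ℂ[X] →+* ℂ)),
      ← aeval_algebraMap_apply, RatFunc.algebraMap_X, aeval_def, eval₂_map]
    congr 1
    ext x
    · simp
    · simp
  rw [PowerSeries.coeff_zero_eq_constantCoeff] at h
  rw [h] at h1
  have h2 : P.map (Polynomial.constantCoeff : ℂ[X] →+* ℂ) = 0 := by
    apply IsFractionRing.injective ℂ[X] (RatFunc ℂ)
    rw [map_zero]
    exact h1.symm
  have h3 := congrArg (fun r => r.coeff j) h2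
  simpa using h3

theorem s3 : D3.S3 := by
  intro F hF0 hF m D hD0 hDm hD hE
  obtain ⟨e, Q, P, hQ0, hQe, hQ, hP, hrel⟩ := fatou F hF m D hD0 hDm hD hE
  have hQv : ∀ i, e < i → Q i = 0 := fun i hi => by
    rcases hQ i with h | h
    · exact h
    · omega
  have hPv : ∀ i, e + 1 < i → P i = 0 := fun i hi => by
    rcases hP i with h | h
    · exact h
    · omega
  -- the bivariate polynomials
  have hQ1 : ∀ i j, e < i + j → ((mkB e Q).coeff j).coeff i = 0 := by
    intro i j hij
    rw [mkB_coeff]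
    split_ifs with h
    · rcases hQ i with h1 | h1
      · rw [h1, coeff_zero]
      · exact coeff_eq_zero_of_natDegree_lt (by omega)
    · rfl
  have hP1 : ∀ i j, e + 1 < i + j → ((mkB (e + 1) P).coeff j).coeff i = 0 := by
    intro i j hij
    rw [mkB_coeff]
    split_ifs with h
    · rcases hP i with h1 | h1
      · rw [h1, coeff_zero]
      · exact coeff_eq_zero_of_natDegree_lt (by omega)
    · rfl
  have hQc : (mkB e Q).coeff e = 1 := by
    ext i
    rw [mkB_coeff, coeff_one]
    by_cases hi : i = 0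
    · rw [hi, if_pos (Nat.zero_le _), if_pos rfl]
      have := hQ0.coeff_natDegree
      rwa [hQe] at this
    · rw [if_neg hi]
      split_ifs with h
      · rcases hQ i with h1 | h1
        · rw [h1, coeff_zero]
        · exact coeff_eq_zero_of_natDegree_lt (by omega)
      · rfl
  have hQd : (mkB e Q).natDegree ≤ e := by
    rw [natDegree_le_iff_coeff_eq_zero]
    intro j hj
    ext i
    rw [coeff_zero]
    exact hQ1 i j (by omega)
  have hQd' : (mkB e Q).natDegree = e :=
    natDegree_eq_of_le_of_coeff_ne_zero hQd (by rw [hQc]; exact one_ne_zero)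
  have hQm : (mkB e Q).Monic := by
    rw [Monic, leadingCoeff, hQd', hQc]
  have heq : D3.evB (mkB e Q) * PowerSeries.mk F = D3.evB (mkB (e + 1) P) := by
    rw [evB_mkB e Q hQv, evB_mkB (e + 1) P hPv]
    ext n
    rw [PowerSeries.coeff_mul, PowerSeries.coeff_mk,
      Finset.Nat.sum_antidiagonal_eq_sum_range_succ_mk]
    simp only [PowerSeries.coeff_mk]
    exact hrel n
  -- cancel the gcd
  obtain ⟨Q', P', c, hcop, hcQ, hcP⟩ :=
    UniqueFactorizationMonoid.exists_reduced_factors (mkB e Q) hQm.ne_zero (mkB (e + 1) P)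
  have hlc : c.leadingCoeff * Q'.leadingCoeff = 1 := by
    rw [← leadingCoeff_mul, hcQ]; exact hQm
  have hlc' : Q'.leadingCoeff * c.leadingCoeff = 1 := by rw [mul_comm]; exact hlc
  -- normalise
  have hQ'' : (C c.leadingCoeff * Q').Monic := by
    rw [Monic, leadingCoeff_mul, leadingCoeff_C, hlc]
  have hc'' : (C Q'.leadingCoeff * c).Monic := by
    rw [Monic, leadingCoeff_mul, leadingCoeff_C, hlc']
  set Q2 : ℂ[X][X] := C c.leadingCoeff * Q' with hQ2
  set P2 : ℂ[X][X] := C c.leadingCoeff * P' with hP2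
  set c2 : ℂ[X][X] := C Q'.leadingCoeff * c with hc2
  have hone : (C c.leadingCoeff : ℂ[X][X]) * C Q'.leadingCoeff = 1 := by
    rw [← C_mul, hlc, C_1]
  have hcQ2 : c2 * Q2 = mkB e Q := by
    rw [← hcQ, hQ2, hc2]
    linear_combination (c * Q') * hone
  have hcP2 : c2 * P2 = mkB (e + 1) P := by
    rw [← hcP, hP2, hc2]
    linear_combination (c * P') * hone
  have hunit : IsUnit (C c.leadingCoeff : ℂ[X][X]) := IsUnit.of_mul_eq_one _ hone
  have hcop2 : IsRelPrime P2 Q2 := by
    have h1 : IsRelPrime Q' P' := hcop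
    rw [hP2, hQ2, isRelPrime_mul_unit_left_left hunit, isRelPrime_mul_unit_left_right hunit]
    exact h1.symm
  -- degrees
  have hdeg : c2.natDegree + Q2.natDegree = e := by
    rw [← hc''.natDegree_mul hQ'', hcQ2, hQd']
  have htQ : (tau c2).natDegree + (tau Q2).natDegree ≤ e := by
    rw [← natDegree_mul (tau_ne_zero hc''.ne_zero) (tau_ne_zero hQ''.ne_zero), ← map_mul, hcQ2]
    exact tau_le hQ1
  have h1 := le_tau hc''
  have h2 := le_tau hQ''
  have htP : (tau P2).natDegree ≤ Q2.natDegree + 1 := by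
    by_cases hP0 : P2 = 0
    · rw [hP0]; simp
    · have h3 : (tau c2).natDegree + (tau P2).natDegree ≤ e + 1 := by
        rw [← natDegree_mul (tau_ne_zero hc''.ne_zero) (tau_ne_zero hP0), ← map_mul, hcP2]
        exact tau_le hP1
      omega
  have heq2 : D3.evB Q2 * PowerSeries.mk F = D3.evB P2 := by
    have h3 : D3.evB c2 ≠ 0 := by
      intro h0
      have h4 : D3.evB (mkB e Q) = 0 := by
        rw [← hcQ2, evB_eq, map_mul, ← evB_eq, h0, zero_mul]
      rw [evB_mkB e Q hQv] at h4
      have h5 := congrArg (PowerSeries.coeff 0) h4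
      rw [PowerSeries.coeff_mk, map_zero] at h5
      have h6 : Q 0 = 0 := by
        apply IsFractionRing.injective ℂ[X] (RatFunc ℂ)
        rw [map_zero]
        exact h5
      rw [h6] at hQ0
      exact hQ0.ne_zero rfl
    apply mul_left_cancel₀ h3
    rw [← mul_assoc]
    have h4 : D3.evB c2 * D3.evB Q2 = D3.evB (mkB e Q) := by
      rw [← hcQ2, evB_eq, evB_eq, evB_eq (c2 * Q2), ← map_mul]
    have h5 : D3.evB c2 * D3.evB P2 = D3.evB (mkB (e + 1) P) := by
      rw [← hcP2, evB_eq, evB_eq, evB_eq (c2 * P2), ← map_mul]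
    rw [h4, h5, heq]
  refine ⟨Q2.natDegree + 1, P2, Q2, ⟨Nat.le_add_left _ _, hQ'', by simp, ?_, ?_, ?_, hcop2, heq2⟩⟩
  · intro i j hij
    exact coeff_of_tau (D := Q2.natDegree) (by omega) i j (by omega)
  · intro i j hij
    exact coeff_of_tau htP i j hij
  · apply evB_zero
    rw [← heq2, PowerSeries.coeff_zero_eq_constantCoeff, map_mul,
      ← PowerSeries.coeff_zero_eq_constantCoeff_apply (PowerSeries.mk F), PowerSeries.coeff_mk, hF0,
      mul_zero]

end Vale.Agent.P097.H104
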